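import Vale.Agent.P318.M.All

namespace Vale.Agent.Results.P318.ALogPow

open Vale.Agent.P318

/-- The Goemans-Linial integrality gap for uniform demands grows at least like a fixed
positive power of `log n`. -/
theorem result : ∃ c : ℝ, 0 < c ∧ ∃ n0 : ℕ, ∀ n : ℕ, n0 ≤ n → Real.log n ^ c ≤ gap n :=
  M.final_all

end Vale.Agent.Results.P318.ALogPow
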