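import Vale.Agent.P318.B.All

/-!
The Goemans-Linial integrality gap for uniform demands is `sqrt (log n)` up to a power of
`log log n`: lower bound.
-/

open Vale.Agent.P318

theorem Vale.Agent.P318.Old.ASqrtLog :
    ∃ (C : ℕ) (c : ℝ), 0 < c ∧ ∃ n0 : ℕ, ∀ n : ℕ, n0 ≤ n →
      c * Real.sqrt (Real.log n) / Real.log (Real.log n) ^ C ≤ gap n :=
  Vale.Agent.P318.B.finalB
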